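import Vale.Agent.P179.H342.R5
import Vale.Agent.P179.Allb.DefsR
import Vale.Agent.P179.H737.RNum
import Vale.Agent.P179.H815.Num2

/-!
# REL (P179): the signature theorem relative to a factor: frozen letters, one `Prop` per module

`D = D1 × D2` is an abelian `p`-group, `τ` an automorphism of order `e` prime to `p` which
respects the factors and acts freely on `D1 - 1`, `D1 ≠ 1`; its action on `D2` is arbitrary.
Every subgroup not contained in `D2` is made good, `k[D1]` is graded, `k[D2]` and `τ` have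
degree `0`.
-/

namespace Vale.P179.Rel

open Module Vale.P179.H175 Vale.P179.H904 Vale.P179.H445 Vale.P179.Sgn Vale.P179.Allb P179H342
open scoped TensorProduct

/-! ## (D1) the relative data -/

/-- The relative data `A → B` (`A` spanned by the finite group `Γ = (D1 × D2) ⋊ ⟨t⟩`). -/
structure RKData (k A B Γ : Type) [Field k] [Ring A] [Algebra k A] [Ring B] [Algebra k B]
    [Group Γ] [Fintype Γ] (D1 D2 : Subgroup Γ) (t : Γ) where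
  /-- the group elements in `A` -/
  γ : Γ →* A
  /-- the augmentation -/
  aug : A →ₐ[k] k
  /-- the algebra map -/
  ι : A →ₐ[k] B
  /-- the bimodule retraction -/
  ρ : B →ₗ[k] A
  /-- Higman's map -/
  θ : B →ₗ[k] B
  /-- number of terms of the separability element -/
  m : ℕ
  /-- left half of the separability element -/
  s : Fin m → B
  /-- right half of the separability element -/
  r : Fin m → B
  /-- the symmetrising form -/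
  τ : B →ₗ[k] k
  /-- the index type of the permutation basis -/
  I : Type
  fin : Fintype I
  /-- the permutation basis -/
  b : Basis I k B
  span : Submodule.span k (Set.range γ) = ⊤
  augγ : ∀ g, aug (γ g) = 1
  nz : ∑ g, γ g ≠ 0
  card0 : (Nat.card D1 : k) = 0
  rel : ∀ [Fintype D1], H445.Rel (γ.comp D1.subtype) ι ρ θ
  θl : ∀ x ∈ D2 ⊔ Subgroup.zpowers t, ∀ v, θ (ι (γ x) * v) = ι (γ x) * θ v
  θr : ∀ x ∈ D2 ⊔ Subgroup.zpowers t, ∀ v, θ (v * ι (γ x)) = θ v * ι (γ x)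
  projl : ∃ η : B →ₗ[k] B, ∀ v, ∑ g : Γ, ι (γ g) * η (ι (γ g⁻¹) * v) = v
  projr : ∃ η : B →ₗ[k] B, ∀ v, ∑ g : Γ, η (v * ι (γ g)) * ι (γ g⁻¹) = v
  st : ∑ i, s i * r i = 1
  sep : ∀ v : B, (∑ i, (v * s i) ⊗ₜ[k] r i) - (∑ i, s i ⊗ₜ[k] (r i * v)) ∈
    Submodule.span k {z : B ⊗[k] B | ∃ (x y : B) (h : A), z = (x * ι h) ⊗ₜ[k] y - x ⊗ₜ[k] (ι h * y)}
  tc : ∀ a b, τ (a * b) = τ (b * a)
  nd : ∀ a, (∀ b, τ (a * b) = 0) → a = 0
  tρ : ∀ v, τ (ι (ρ v)) = τ v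
  stab : ∀ x ∈ D1 ⊔ D2, ∀ y ∈ D1 ⊔ D2, ∀ i, ∃ j, ι (γ x) * b i * ι (γ y) = b j
  tw : ∀ i, ∃ l : ℕ, ∀ x ∈ D1 ⊔ D2, ∀ y ∈ D1 ⊔ D2,
    ι (γ x) * b i = b i * ι (γ y) → y = t ^ l * x * (t ^ l)⁻¹

/-- Everything at once: the relative data `A → B`, the grading of `A`, and the graded local
subalgebra `A₁ = k[D1 ⋊ ⟨t⟩]` of `A` (342's `RGr1`). -/
structure RAll (k A B A1 Γ : Type) [Field k] [Ring A] [Algebra k A] [Ring B] [Algebra k B]
    [Ring A1] [Algebra k A1] [Group Γ] [Fintype Γ] (D1 D2 : Subgroup Γ) (t : Γ)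
    [Fintype ↥(D1 ⊔ Subgroup.zpowers t)] (e M c : ℕ) [NeZero e] where
  /-- the relative data -/
  D : RKData k A B Γ D1 D2 t
  /-- the grading of `A` -/
  H : RGr k A Γ D.γ D2 t e M c
  /-- the group elements in `A₁` -/
  γ1 : ↥(D1 ⊔ Subgroup.zpowers t) →* A1
  /-- the graded subalgebra `A₁` -/
  G1 : RGr1 k A A1 Γ ↥(D1 ⊔ Subgroup.zpowers t) D.γ γ1 (D1 ⊔ Subgroup.zpowers t).subtype D2 t
    e M c H
  span1 : Submodule.span k (Set.range γ1) = ⊤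

/-! ## (D3) modules -/

/-- MODULE S4AR1 (342, done: `P179H342.s4ar1`): the graded local algebra and its free part. -/
def S4AR1 : Prop := ∀ (p : ℕ) [Fact p.Prime] (k : Type) [Field k] [IsAlgClosed k] [CharP k p]
  (Γ : Type) [Group Γ] [Fintype Γ] (D1 D2 : Subgroup Γ) (t : Γ) (e : ℕ) [NeZero e]
  [Fintype ↥(D1 ⊔ Subgroup.zpowers t)], FreeCycR p Γ D1 D2 t e →
  ∃ (M c : ℕ) (H : RGr k (MonoidAlgebra k Γ) Γ (MonoidAlgebra.of k Γ) D2 t e M c),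
    Nonempty (RGr1 k (MonoidAlgebra k Γ) (MonoidAlgebra k ↥(D1 ⊔ Subgroup.zpowers t)) Γ
      ↥(D1 ⊔ Subgroup.zpowers t) (MonoidAlgebra.of k Γ) (MonoidAlgebra.of k _)
      (D1 ⊔ Subgroup.zpowers t).subtype D2 t e M c H)

/-- MODULE SEPR (300): automatic separability. -/
def SEPR : Prop := ∀ (p : ℕ) [Fact p.Prime] (k Γ B : Type) [Field k] [CharP k p] [Group Γ]
  [Fintype Γ] [Ring B] [Algebra k B] [FiniteDimensional k B] (D1 D2 : Subgroup Γ) (t : Γ)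
  (e : ℕ) [NeZero e] [Fintype D1], FreeCycR p Γ D1 D2 t e →
  ∀ (ι : MonoidAlgebra k Γ →ₐ[k] B) (ρ : B →ₗ[k] MonoidAlgebra k Γ) (θ : B →ₗ[k] B)
  (τ : B →ₗ[k] k), H445.Rel ((MonoidAlgebra.of k Γ).comp D1.subtype) ι ρ θ →
  (∀ x ∈ D2 ⊔ Subgroup.zpowers t, ∀ v, θ (ι (MonoidAlgebra.of k Γ x) * v) =
    ι (MonoidAlgebra.of k Γ x) * θ v) →
  (∀ x ∈ D2 ⊔ Subgroup.zpowers t, ∀ v, θ (v * ι (MonoidAlgebra.of k Γ x)) =
    θ v * ι (MonoidAlgebra.of k Γ x)) →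
  (∃ η : B →ₗ[k] B, ∀ v, ∑ g : Γ, η (v * ι (MonoidAlgebra.of k Γ g)) *
    ι (MonoidAlgebra.of k Γ g⁻¹) = v) →
  (∀ a b, τ (a * b) = τ (b * a)) → (∀ a, (∀ b, τ (a * b) = 0) → a = 0) →
  (∀ a, τ (ι (ρ a)) = τ a) → ZLoc B →
  ∃ (m : ℕ) (s r : Fin m → B), (∑ i, s i * r i = 1) ∧
    ∀ v : B, (∑ i, (v * s i) ⊗ₜ[k] r i) - (∑ i, s i ⊗ₜ[k] (r i * v)) ∈
      Submodule.span k {z : B ⊗[k] B | ∃ (x y : B) (h : MonoidAlgebra k Γ),
        z = (x * ι h) ⊗ₜ[k] y - x ⊗ₜ[k] (ι h * y)}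

/-- MODULE S1R (554, done up to letters: `H554.RS.hsd_rel`): the Hasse–Schmidt derivation. -/
def S1R : Prop := ∀ (p : ℕ) [Fact p.Prime] (k A B Γ : Type) [Field k] [CharP k p] [Ring A]
  [Algebra k A] [Ring B] [Algebra k B] [FiniteDimensional k B] [Group Γ] [Fintype Γ]
  (D1 D2 : Subgroup Γ) (t : Γ) (e : ℕ) [NeZero e], FreeCycR p Γ D1 D2 t e →
  ∀ (D : RKData k A B Γ D1 D2 t) (M c : ℕ) (H : RGr k A Γ D.γ D2 t e M c),
  Nonempty (HSD k D.ι H.W)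

/-- MODULE FLDR (445): base change to `K = alg. closure of k((s))` and the automorphism. -/
def FLDR : Prop := ∀ (p : ℕ) [Fact p.Prime] (k A B A1 Γ : Type) [Field k] [IsAlgClosed k]
  [CharP k p] [Ring A] [Algebra k A] [FiniteDimensional k A] [Ring B] [Algebra k B]
  [FiniteDimensional k B] [Nontrivial B] [Ring A1] [Algebra k A1] [FiniteDimensional k A1]
  [Group Γ] [Fintype Γ] (D1 D2 : Subgroup Γ) (t : Γ) [Fintype ↥(D1 ⊔ Subgroup.zpowers t)]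
  (e M c : ℕ) [NeZero e], FreeCycR p Γ D1 D2 t e → ∀ X : RAll k A B A1 Γ D1 D2 t e M c,
  Nonempty (HSD k X.D.ι X.H.W) → ZLoc B →
  ∃ (X' : RAll (KK k) (KK k ⊗[k] A) (KK k ⊗[k] B) (KK k ⊗[k] A1) Γ D1 D2 t e M c)
    (l : KK k) (g : (KK k ⊗[k] B) ≃ₐ[KK k] (KK k ⊗[k] B)),
    l ≠ 0 ∧ (∀ n : ℕ, 0 < n → l ^ n ≠ 1) ∧
    (∀ (w : ℕ) (h : KK k ⊗[k] A), h ∈ X'.H.W w → g (X'.D.ι h) = l ^ w • X'.D.ι h) ∧
    ZLoc (KK k ⊗[k] B) ∧ lB (KK k) (KK k ⊗[k] B) ≤ lB k B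

/-- MODULE A3R (843 / 815 / 554, with Lemma L): the relation from `B ⊗_A B = B ⊕ X`, `X` in the
rational span of the projective bimodules. -/
def A3R : Prop := ∀ (p : ℕ) [Fact p.Prime] (K A B A1 Γ : Type) [Field K] [IsAlgClosed K]
  [CharP K p] [Ring A] [Algebra K A] [FiniteDimensional K A] [Ring B] [Algebra K B]
  [FiniteDimensional K B] [Ring A1] [Algebra K A1] [FiniteDimensional K A1] [Group Γ]
  [Fintype Γ] (D1 D2 : Subgroup Γ) (t : Γ) [Fintype ↥(D1 ⊔ Subgroup.zpowers t)]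
  (e M c : ℕ) [NeZero e], FreeCycR p Γ D1 D2 t e → ∀ X : RAll K A B A1 Γ D1 D2 t e M c,
  ZLoc B → ∀ (W : ℚ → Submodule K B) (J : Submodule K B) (n : ℕ) (E : Fin n → B),
  Basic W J E → (∀ r : ℚ, ∀ h ∈ X.H.W r, X.D.ι h ∈ W r) →
  ∀ u : Matrix (ZMod e) (Fin n) H737.R.RQ,
  (∀ a m, H737.R.emb (gd W (cor2 K (X.D.ι (X.H.ε a)) (E m))) =
    ∑ b, H737.R.CHr M c X.H.P a b * u b m) →
  ∃ z : Matrix (Fin n) (Fin n) H737.R.RQ,
    H737.R.ct u * H737.R.embM (H815.ymat W J E (fun a => X.D.ι (X.H.ε a))) =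
      1 + H737.R.embM (H815.cmat W E) * z

/-- MODULE CORER (737): the `K`-level theorem, from A3R (with EP2, EP3, TWIST and the numbers). -/
def CORER : Prop := ∀ (p : ℕ) [Fact p.Prime] (K A B A1 Γ : Type) [Field K] [IsAlgClosed K]
  [CharP K p] [Ring A] [Algebra K A] [FiniteDimensional K A] [Ring B] [Algebra K B]
  [FiniteDimensional K B] [Ring A1] [Algebra K A1] [FiniteDimensional K A1] [Group Γ]
  [Fintype Γ] (D1 D2 : Subgroup Γ) (t : Γ) [Fintype ↥(D1 ⊔ Subgroup.zpowers t)]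
  (e M c : ℕ) [NeZero e], FreeCycR p Γ D1 D2 t e → ∀ X : RAll K A B A1 Γ D1 D2 t e M c,
  ZLoc B → ∀ (W : ℚ → Submodule K B) (J : Submodule K B) (n : ℕ) (E : Fin n → B),
  Basic W J E → (∀ r : ℚ, ∀ h ∈ X.H.W r, X.D.ι h ∈ W r) → e ≤ n

/-! ## (D4) from the class `AX` -/

/-- the hypotheses on `D = D1 × D2` -/
structure TWR (p : ℕ) (D : Type) [CommGroup D] (τ : MulAut D) (e : ℕ) (D1 D2 : Subgroup D) : Prop
    extends TW0 p D τ e where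
  s1 : ∀ x ∈ D1, τ x ∈ D1
  s2 : ∀ x ∈ D2, τ x ∈ D2
  dis : D1 ⊓ D2 = ⊥
  sup : D1 ⊔ D2 = ⊤
  ne : D1 ≠ ⊥
  free1 : ∀ (i : ℕ), ∀ d ∈ D1, d ≠ 1 → (τ ^ i) d = d → e ∣ i

/-- MODULE LOOPR: every subgroup not contained in `D2` can be made good. -/
def LOOPR : Prop := ∀ (p : ℕ) [Fact p.Prime] (k : Type) [Field k] [IsAlgClosed k] [CharP k p]
  (D : Type) [CommGroup D] [Finite D] (τ : MulAut D) (e : ℕ) [NeZero e] (D1 D2 : Subgroup D),
  TWR p D τ e D1 D2 → ∀ (Λ : Type) [Ring Λ] [Algebra k Λ] (_ : AX k D Λ τ e),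
  ∃ (Λ' : Type) (_ : Ring Λ') (_ : Algebra k Λ') (A' : AX k D Λ' τ e), lB k Λ' ≤ lB k Λ ∧
    ∀ X : Subgroup D, ¬ X ≤ D2 → A'.cnt X = Nat.card D

/-- MODULE GRPDR: the semidirect product. -/
def GRPDR : Prop := ∀ (p : ℕ) [Fact p.Prime] (D : Type) [CommGroup D] [Finite D]
  (τ : MulAut D) (e : ℕ) [NeZero e] (D1 D2 : Subgroup D), TWR p D τ e D1 D2 →
  ∃ (Γ : Type) (_ : Group Γ) (_ : Fintype Γ) (i : D →* Γ) (g : Γ), GX D Γ τ e i g ∧
    FreeCycR p Γ (D1.map i) (D2.map i) g e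

/-- MODULE ENDPR (445 + 300): the relative data of a good `AX`. -/
def ENDPR : Prop := ∀ (p : ℕ) [Fact p.Prime] (k : Type) [Field k] [IsAlgClosed k] [CharP k p]
  (D : Type) [CommGroup D] [Finite D] (τ : MulAut D) (e : ℕ) [NeZero e] (D1 D2 : Subgroup D),
  TWR p D τ e D1 D2 → ∀ (Λ : Type) [Ring Λ] [Algebra k Λ] (A : AX k D Λ τ e),
  (∀ X : Subgroup D, ¬ X ≤ D2 → A.cnt X = Nat.card D) →
  ∀ (Γ : Type) [Group Γ] [Fintype Γ] (i : D →* Γ) (g : Γ), GX D Γ τ e i g →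
  FreeCycR p Γ (D1.map i) (D2.map i) g e →
  ∃ K : RKData k (MonoidAlgebra k Γ) Λ Γ (D1.map i) (D2.map i) g, K.γ = MonoidAlgebra.of k Γ ∧
    ZLoc Λ

/-- The lower bound for the class `AX`. -/
def LOWERR : Prop := ∀ (p : ℕ) [Fact p.Prime] (k : Type) [Field k] [IsAlgClosed k] [CharP k p]
  (D : Type) [CommGroup D] [Finite D] (τ : MulAut D) (e : ℕ) [NeZero e] (D1 D2 : Subgroup D),
  TWR p D τ e D1 D2 → ∀ (Λ : Type) [Ring Λ] [Algebra k Λ] (_ : AX k D Λ τ e), e ≤ lB k Λ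

/-! ## (D5) blocks -/

/-- `D = D1 × D2`, both normalised by the inertial group, which is cyclic modulo `C_G(D)` and acts
freely on `D1 - 1`. -/
structure BHyp {k G : Type} [Field k] [Group G] (D D1 D2 : Subgroup G)
    (b : MonoidAlgebra k (Subgroup.centralizer (D : Set G))) : Prop where
  comm : ∀ x ∈ D, ∀ y ∈ D, x * y = y * x
  cyc : ∃ t ∈ P179B.inertialGroup D b, ∀ n ∈ P179B.inertialGroup D b, ∃ i : ℕ,
    t ^ i * n ∈ Subgroup.centralizer (D : Set G)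
  s1 : ∀ n ∈ P179B.inertialGroup D b, ∀ x ∈ D1, n * x * n⁻¹ ∈ D1
  s2 : ∀ n ∈ P179B.inertialGroup D b, ∀ x ∈ D2, n * x * n⁻¹ ∈ D2
  dis : D1 ⊓ D2 = ⊥
  sup : D1 ⊔ D2 = D
  ne : D1 ≠ ⊥
  free1 : ∀ u ∈ D1, u ≠ 1 → u ∈ P179B.regularElements D b

/-- MODULE BLKR (531): the lower bound for blocks, from STARTR and LOWERR. -/
def BLKR : Prop := ∀ (p : ℕ) [Fact p.Prime] (k : Type) [Field k] [IsAlgClosed k] [CharP k p]
  (G : Type) [Group G] [Finite G] (B : MonoidAlgebra k G), P179C.IsBlock B →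
  ∀ D : Subgroup G, P179C.IsDefectGroup B D →
  ∀ b : MonoidAlgebra k (Subgroup.centralizer (D : Set G)), P179C.IsBlock b →
  P179C.InducesTo b B → ∀ D1 D2 : Subgroup G, BHyp D D1 D2 b →
  P179B.inertialIndex D b ≤ P179C.numSimpleIn B

/-- MODULE UPPERR (190): the upper bound, given the lower bound for all groups. -/
def UPPERR : Prop := ∀ (p : ℕ) [Fact p.Prime] (k : Type) [Field k] [IsAlgClosed k] [CharP k p]
  (_ : integralClosure ℤ ℂ →+* k) (G : Type) [Group G] [Fintype G] (B : MonoidAlgebra k G),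
  P179C.IsBlock B → ∀ D : Subgroup G, P179C.IsDefectGroup B D →
  ∀ b : MonoidAlgebra k (Subgroup.centralizer (D : Set G)), P179C.IsBlock b →
  P179C.InducesTo b B → ∀ D1 D2 : Subgroup G, BHyp D D1 D2 b → p ≠ 2 →
  P179C.numSimpleIn B ≤ P179B.inertialIndex D b

end Vale.P179.Rel
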