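import Vale.Agent.P179.Rel.Lib

/-!
# REL (P179): the hypotheses of the free cyclic case give a free factor
-/

namespace Vale.P179.Rel

open Subgroup P179H292 P179H351

open P179B (inertialIndex inertialGroup regularElements hyperfocal IsCore FreeFactorOn)

/-- a factor of `D = [D, S] × C_D(S)` -/
theorem freeFactorOn_of_comm {G : Type} [Group G] [Finite G] {p : ℕ} [Fact p.Prime]
    {D S : Subgroup G} (hDp : IsPGroup p D) (hab : ∀ x ∈ D, ∀ y ∈ D, x * y = y * x)
    (hS : S ≤ normalizer (D : Set G)) (hi : ¬ p ∣ (centralizer (D : Set G)).relIndex S)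
    (hfree : ∀ u ∈ (⁅S, D⁆ : Subgroup G), u ≠ 1 → ∀ s ∈ S, s * u * s⁻¹ = u →
      s ∈ centralizer (D : Set G))
    (hcyc : ∃ t ∈ S, ∀ n ∈ S, ∃ i : ℕ, t ^ i * n ∈ centralizer (D : Set G)) :
    FreeFactorOn D S := by
  have hSD : ∀ t ∈ S, ∀ d ∈ D, t * d * t⁻¹ ∈ D := fun t ht d hd =>
    (mem_normalizer_iff.1 (hS ht) d).1 hd
  obtain ⟨h1, h2⟩ := fitting hDp hab hSD hi
  have hle : focal D S ≤ D := focal_le hSD
  have hcf : (⁅S, D⁆ : Subgroup G) = focal D S := P179H450.comm_eq_focal D S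
  have hst : ∀ n ∈ S, ∀ x ∈ focal D S, n * x * n⁻¹ ∈ focal D S := by
    rw [← hcf]
    intro n hn x hx
    exact (mem_normalizer_iff.1 ((comm_normal hS fun t ht f hf =>
      mul_mem (mul_mem ht hf) (inv_mem ht)) hn) x).1 hx
  refine ⟨hcyc, focal D S, fixD D S, ?_, ?_, hst, ?_, ?_, ?_⟩
  · rw [eq_bot_iff]
    intro x hx
    exact mem_bot.2 (h1 x (mem_inf.1 hx).2 (mem_inf.1 hx).1)
  · apply le_antisymm
    · exact sup_le hle fun x hx => (mem_fixD.1 hx).1
    · intro d hd
      obtain ⟨z, hz, c, hc, rfl⟩ := h2 d hd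
      exact mul_mem (mem_sup_right hz) (mem_sup_left hc)
  · intro n hn x hx
    rwa [(mem_fixD.1 hx).2 n hn]
  · intro hb s hs
    rw [mem_centralizer_iff]
    intro d hd
    obtain ⟨z, hz, c, hc, rfl⟩ := h2 d hd
    rw [hb, mem_bot] at hc
    rw [hc, mul_one]
    have h3 := (mem_fixD.1 hz).2 s hs
    rw [mul_inv_eq_iff_eq_mul] at h3
    exact h3.symm
  · rw [← hcf]
    exact hfree

/-- the hypotheses of the free cyclic case give a free factor -/
theorem freeFactorOn_of_core {p : ℕ} [Fact p.Prime] {k : Type} [Field k] [IsAlgClosed k]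
    [CharP k p] (red : integralClosure ℤ ℂ →+* k) {G : Type} [Group G] [Finite G]
    {B : MonoidAlgebra k G} {D : Subgroup G} {b : MonoidAlgebra k (centralizer (D : Set G))}
    (hB : P179B.IsBlock B) (hD : P179B.IsDefectGroup B D)
    (hab : ∀ x ∈ D, ∀ y ∈ D, x * y = y * x) (hb : P179B.IsBlock b)
    (hbB : P179B.InducesTo b B) {K : Subgroup G} (hK : IsCore D b K)
    (hfree : ∀ u ∈ K, u ≠ 1 → u ∈ regularElements D b)
    (hcyc : ∃ t ∈ inertialGroup D b, ∀ n ∈ inertialGroup D b, ∃ i : ℕ,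
      t ^ i * n ∈ centralizer (D : Set G)) : FreeFactorOn D (inertialGroup D b) := by
  have hTN : inertialGroup D b ≤ normalizer (D : Set G) := fun n hn => hn.1
  rcases hK with rfl | rfl
  · exact freeFactorOn_of_cyclic hTN ⟨fun u hu hu1 s hs h => (hfree u hu hu1).2 s hs h, hcyc⟩
  · rw [hyperfocal_eq] at hfree
    exact freeFactorOn_of_comm (P179H292.isPGroup_of_defect (k := k) hB hD) hab hTN
      (numWeights_le red hB hD hab hb hbB).2
      (fun u hu hu1 s hs h => (hfree u hu hu1).2 s hs h) hcyc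

end Vale.P179.Rel
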