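import Vale.Agent.P179.Rel.Final

/-!
# REL (P179): the final theorem contains the statement of the hand-in `FreeCyclicEquality`
-/

namespace Vale.P179.Rel

open P179B Subgroup P179H292 P179H524 P179H351 P179H843 P179H364

theorem solvedFrom_of_cyclic {p : ℕ} {G : Type*} [Group G] {K S : Subgroup G}
    (hS : S ≤ normalizer (K : Set G)) (h : SolvedByCyclic p K S) :
    SolvedFrom p (KnownOrFactor p) K S := by
  induction h with
  | known h =>
    exact SolvedFrom.base (h.imp id fun h => freeFactorOn_of_cyclic hS h)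
  | @step K S a j o w hj ho hw hord hreg hii hcd _ ih =>
    exact SolvedFrom.step a j o w hj ho hw hord hreg hii hcd
      fun F hF hq => ih F hF hq inf_le_right

theorem solvedBlockFrom_of_cyclic {p : ℕ} {k : Type} [Field k] {G : Type} [Group G] [Finite G]
    {B : MonoidAlgebra k G} (h : SolvedBlockCyclic p B) :
    SolvedBlockFrom p (KnownOrFactor p) B := by
  obtain ⟨hp2, D, b, hD, hab, hb, hbB, h⟩ := h
  refine ⟨hp2, D, b, hD, hab, hb, hbB, h.imp (fun h => ?_) ?_⟩
  · exact solvedFrom_of_cyclic (fun n hn => hn.1) h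
  · rintro ⟨M, hMn, hM, h⟩
    refine ⟨M, hMn, hM, solvedFrom_of_cyclic ?_ h⟩
    refine comm_normal (fun n hn => hn.1) fun t ht f hf => ?_
    have h2 : (centralizer (M : Set G)).Normal := inferInstance
    exact Subgroup.mem_inf.2 ⟨(inertialGroup D b).mul_mem ((inertialGroup D b).mul_mem ht hf.1)
      ((inertialGroup D b).inv_mem ht), h2.conj_mem f hf.2 t⟩

/-- the statement of `FreeCyclicEquality`, from the final theorem -/
theorem cover (hB1 : BLKR) (p : ℕ) [Fact p.Prime]
    (k : Type) [Field k] [IsAlgClosed k] [CharP k p] :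
    Nonempty (integralClosure ℤ ℂ →+* k) ∧
    ∀ (red : integralClosure ℤ ℂ →+* k) (G : Type) [Group G] [Finite G]
      (B : MonoidAlgebra k G), IsBlock B →
      (∀ D : Subgroup G, IsDefectGroup B D →
        (∃ b : MonoidAlgebra k (centralizer (D : Set G)), IsBlock b ∧ InducesTo b B) ∧
        ((∀ x ∈ D, ∀ y ∈ D, x * y = y * x) →
          ∀ b : MonoidAlgebra k (centralizer (D : Set G)), IsBlock b → InducesTo b B →
          (∀ K : Subgroup G, IsCore D b K → (∀ u ∈ K, u ≠ 1 → u ∈ regularElements D b) →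
            (∃ t ∈ inertialGroup D b, ∀ n ∈ inertialGroup D b, ∃ i : ℕ,
              t ^ i * n ∈ centralizer (D : Set G)) →
            numWeightsIn p red B = inertialIndex D b ∧ inertialIndex D b ≤ numSimpleIn B ∧
              (p ≠ 2 → numSimpleIn B = inertialIndex D b)) ∧
          ∀ a : ℕ, 2 < p → LevelSolvedCyclic p a D b →
            numSimpleIn B ≡ numWeightsIn p red B [MOD p ^ (a + 1)])) ∧
      (SolvedBlockCyclic p B → numSimpleIn B = numWeightsIn p red B) ∧
      ∀ (R : Subgroup G) [R.Normal], IsPGroup p R →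
        (∀ B' : MonoidAlgebra k (G ⧸ R), IsBlock B' →
          B' * MonoidAlgebra.mapDomainAlgHom k k (QuotientGroup.mk' R) B = B' →
          SolvedBlockCyclic p B') →
        numSimpleIn B = numWeightsIn p red B := by
  obtain ⟨h0, h⟩ := final hB1 p k
  refine ⟨h0, fun red G _ _ B hB => ?_⟩
  obtain ⟨h1, h2, h3⟩ := h red G B hB
  refine ⟨fun D hD => ⟨(h1 D hD).1, fun hab b hb hbB => ?_⟩, fun hs =>
    h2 (solvedBlockFrom_of_cyclic hs), fun R _ hR hs => h3 R hR fun B' hB' hBB' =>
      solvedBlockFrom_of_cyclic (hs B' hB' hBB')⟩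
  obtain ⟨h4, h5⟩ := (h1 D hD).2 hab b hb hbB
  exact ⟨fun K hK hfree hcyc => h4 hcyc
    (Or.inr (freeFactorOn_of_core red hB hD hab hb hbB hK hfree hcyc)),
    fun a hp2 ha => h5 a hp2 fun F hF hq => solvedFrom_of_cyclic inf_le_right (ha F hF hq)⟩

end Vale.P179.Rel
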