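import Vale.Agent.P179.Rel.KnDef3
import Vale.Agent.P179.Allb.CycAct
import Vale.Agent.P179.H904.Res3

/-!
# Transfer of `FreeFactorOn` along `ActSub`; sources of `FreeFactorOn`
-/

namespace Vale.P179.Rel

open Subgroup P179H292 P179H364 Vale.P179.Allb

open P179B (FreeCyclicOn FreeFactorOn)

section Act

variable {G X : Type*} [Group G] [Group X] {K T : Subgroup G} {D' T' : Subgroup X}

/-- the image of a subgroup of `K` under `K ≃* D'` -/
def push (e : K ≃* D') (L : Subgroup G) : Subgroup X :=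
  (L.subgroupOf K).map (D'.subtype.comp e.toMonoidHom)

theorem push_inj (e : K ≃* D') : Function.Injective (D'.subtype.comp e.toMonoidHom) :=
  D'.subtype_injective.comp e.injective

theorem mem_push {e : K ≃* D'} {L : Subgroup G} {x : X} :
    x ∈ push e L ↔ ∃ y : K, (y : G) ∈ L ∧ (e y : X) = x := Iff.rfl

theorem freeFactorOn_act [Finite K] (hT : T ≤ normalizer (K : Set G)) (h : ActSub K T D' T')
    (hc : FreeFactorOn K T) : FreeFactorOn D' T' := by
  have hK : ∀ t ∈ T, ∀ x ∈ K, t * x * t⁻¹ ∈ K := fun t ht x hx =>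
    (mem_normalizer_iff.1 (hT ht) x).1 hx
  obtain ⟨hcyc, K1, K2, hinf, hsup, h1, h2, h0, hf⟩ := hc
  refine ⟨cyclic_act hT h hcyc, ?_⟩
  obtain ⟨e, he⟩ := act_spec hK h
  have h1K : K1 ≤ K := hsup ▸ le_sup_left
  have h2K : K2 ≤ K := hsup ▸ le_sup_right
  have hst : ∀ L : Subgroup G, (∀ n ∈ T, ∀ x ∈ L, n * x * n⁻¹ ∈ L) →
      ∀ n ∈ T', ∀ x ∈ push e L, n * x * n⁻¹ ∈ push e L := by
    intro L hL n hn x hx
    obtain ⟨y, hy, rfl⟩ := mem_push.1 hx
    obtain ⟨t, ht, hte, -⟩ := he n hn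
    refine mem_push.2 ⟨⟨t * y * t⁻¹, hK t ht y y.2⟩, hL t ht y hy, ?_⟩
    exact (hte y ⟨t * y * t⁻¹, hK t ht y y.2⟩).1 rfl
  refine ⟨push e K1, push e K2, ?_, ?_, hst K1 h1, hst K2 h2, ?_, ?_⟩
  · unfold push
    rw [← map_inf _ _ _ (push_inj e), ← comap_subtype, ← comap_subtype, ← comap_inf, hinf,
      comap_subtype, bot_subgroupOf, Subgroup.map_bot]
  · unfold push
    rw [← Subgroup.map_sup, ← subgroupOf_sup h1K h2K, hsup, subgroupOf_self, ← MonoidHom.range_eq_map]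
    apply le_antisymm
    · rintro _ ⟨x, rfl⟩
      exact (e x).2
    · intro x hx
      obtain ⟨y, hy⟩ := e.surjective ⟨x, hx⟩
      exact ⟨y, congrArg Subtype.val hy⟩
  · intro hb t' ht'
    have hb' : K1 = ⊥ := by
      rw [eq_bot_iff]
      intro x hx
      have h3 : ((e ⟨x, h1K hx⟩ : D') : X) ∈ push e K1 := mem_push.2 ⟨⟨x, h1K hx⟩, hx, rfl⟩
      rw [hb, mem_bot] at h3
      have h4 : e ⟨x, h1K hx⟩ = 1 := Subtype.ext h3
      rw [map_eq_one_iff e e.injective] at h4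
      exact mem_bot.2 (congrArg Subtype.val h4)
    obtain ⟨t, ht, -, hte⟩ := he t' ht'
    exact hte.1 (h0 hb' ht)
  · intro u hu hu1 t' ht' htu
    obtain ⟨x, hx, rfl⟩ := mem_push.1 hu
    obtain ⟨t, ht, hte, hc⟩ := he t' ht'
    refine hc.1 (hf x hx ?_ t ht ?_)
    · intro h
      apply hu1
      have h1 : x = 1 := Subtype.ext h
      rw [h1, map_one]
      rfl
    · exact ((hte x x).2 htu.symm).symm

end Act

section Src

variable {G : Type*} [Group G] {K S : Subgroup G}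

/-- a free cyclic action -/
theorem freeFactorOn_of_cyclic (hS : S ≤ normalizer (K : Set G)) (h : FreeCyclicOn K S) :
    FreeFactorOn K S := by
  refine ⟨h.2, K, ⊥, inf_bot_eq K, sup_bot_eq K, fun n hn x hx =>
    (mem_normalizer_iff.1 (hS hn) x).1 hx, fun n _ x hx => ?_, fun hb s _ => ?_, h.1⟩
  · rw [mem_bot] at hx ⊢
    rw [hx, mul_one, mul_inv_cancel]
  · rw [mem_centralizer_iff]
    intro y hy
    rw [hb] at hy
    rw [mem_bot.1 hy, one_mul, mul_one]

/-- cyclic groups of automorphisms of prime power order -/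
theorem freeFactorOn_of_primePow [Finite G] {p : ℕ} [Fact p.Prime] (hK : IsPGroup p K)
    (hS : S ≤ normalizer (K : Set G)) (hab : ∀ x ∈ K, ∀ y ∈ K, x * y = y * x)
    (hcyc : ∃ t ∈ S, ∀ n ∈ S, ∃ i : ℕ, t ^ i * n ∈ centralizer (K : Set G))
    (hp : ¬ p ∣ (centralizer (K : Set G)).relIndex S)
    (hpp : IsPrimePow ((centralizer (K : Set G)).relIndex S)) : FreeFactorOn K S := by
  obtain ⟨l, m, hl, hm, he⟩ := hpp
  obtain ⟨t, ht, htc⟩ := hcyc
  have hc : (l ^ m).Coprime (Nat.card K) := by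
    obtain ⟨n, hn⟩ := IsPGroup.iff_card.mp hK
    rw [hn, he]
    exact ((Nat.Prime.coprime_iff_not_dvd Fact.out).mpr hp).symm.pow_right n
  obtain ⟨D1, D2, h⟩ := H904.exists_freeFactor (T := S) (D := K) hab hS ht htc hl.nat_prime hm.ne'
    he.symm hc
  exact ⟨⟨t, ht, htc⟩, D1, D2, h.inf, h.sup, h.n1, h.n2, fun hb => absurd hb h.ne,
    fun u hu hu1 s hs h3 => h.free s hs u hu hu1 h3⟩

end Src

end Vale.P179.Rel
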