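import Vale.Agent.P179.Rel.CoreFac
import Vale.Agent.P179.R2.H292.FinalI
import Vale.Agent.P179.H526.Z15

/-!
# REL (P179): the final theorem in the letters of `P179B`, from the lower bound `BLKR`
-/

namespace Vale.P179.Rel

open P179B Subgroup

/-- the final theorem -/
theorem final (hB1 : BLKR) (p : ℕ) [Fact p.Prime]
    (k : Type) [Field k] [IsAlgClosed k] [CharP k p] :
    Nonempty (integralClosure ℤ ℂ →+* k) ∧
    ∀ (red : integralClosure ℤ ℂ →+* k) (G : Type) [Group G] [Finite G]
      (B : MonoidAlgebra k G), IsBlock B →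
      (∀ D : Subgroup G, IsDefectGroup B D →
        (∃ b : MonoidAlgebra k (centralizer (D : Set G)), IsBlock b ∧ InducesTo b B) ∧
        ((∀ x ∈ D, ∀ y ∈ D, x * y = y * x) →
          ∀ b : MonoidAlgebra k (centralizer (D : Set G)), IsBlock b → InducesTo b B →
          (CyclicOn D (inertialGroup D b) →
            IsPrimePow (inertialIndex D b) ∨ FreeFactorOn D (inertialGroup D b) →
            numWeightsIn p red B = inertialIndex D b ∧ inertialIndex D b ≤ numSimpleIn B ∧
              (p ≠ 2 → numSimpleIn B = inertialIndex D b)) ∧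
          ∀ a : ℕ, 2 < p → LevelSolvedFrom p a (KnownOrFactor p) D b →
            numSimpleIn B ≡ numWeightsIn p red B [MOD p ^ (a + 1)])) ∧
      (SolvedBlockFrom p (KnownOrFactor p) B → numSimpleIn B = numWeightsIn p red B) ∧
      ∀ (R : Subgroup G) [R.Normal], IsPGroup p R →
        (∀ B' : MonoidAlgebra k (G ⧸ R), IsBlock B' →
          B' * MonoidAlgebra.mapDomainAlgHom k k (QuotientGroup.mk' R) B = B' →
          SolvedBlockFrom p (KnownOrFactor p) B') →
        numSimpleIn B = numWeightsIn p red B := by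
  refine ⟨P179C.exists_red p k, fun red G _ _ B hB => ⟨fun D hD => ⟨exists_root p hB hD,
    fun hab b hb hbB => ⟨fun hcyc h => factor_core red hB1 hB hD hab hb hbB hcyc h,
      fun a hp2 ha => modEq_of_levelSolved red hB1 hp2 hB hD hab hb hbB ha⟩⟩,
    fun h => eq_of_solvedBlock red hB1 hB h, ?_⟩⟩
  intro R _ hR h
  exact equality_quo red R hR hB fun B' hB' hBB' => eq_of_solvedBlock red hB1 hB' (h B' hB' hBB')

end Vale.P179.Rel
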