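import Vale.Agent.P179.Rel.FacAct
import Vale.Agent.P179.H190.U7
import Vale.Agent.P179.Allb.Final

/-!
# REL (P179): the weight conjecture for the closure of the class `KnownOrFactor`
-/

namespace Vale.P179.Rel

open Subgroup P179H524 P179A P179C P179P P179R P179Y P179H292 P179H351 P179H843 P179H364 P179H443

open P179B (inertialIndex inertialGroup regularElements hyperfocal IsCore KnownOrFactor
  SolvedFrom LevelSolvedFrom SolvedBlockFrom FreeCyclicOn FreeFactorOn PowerFaithful)

open scoped Classical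

section

variable {p : ℕ} [hp : Fact p.Prime] {k : Type} [Field k] [IsAlgClosed k] [hk : CharP k p]
  (red : integralClosure ℤ ℂ →+* k)

omit hp [IsAlgClosed k] hk in
theorem bhyp_of {G : Type} [Group G] {D : Subgroup G}
    (hab : ∀ x ∈ D, ∀ y ∈ D, x * y = y * x)
    {b : MonoidAlgebra k (centralizer (D : Set G))} (h : FreeFactorOn D (inertialGroup D b)) :
    FreeCyclicOn D (inertialGroup D b) ∨ ∃ D1 D2, BHyp D D1 D2 b := by
  obtain ⟨hc, D1, D2, h1, h2, h3, h4, h5, h6⟩ := h
  by_cases hD : D1 = ⊥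
  · exact Or.inl ⟨fun _ _ _ s hs _ => h5 hD hs, hc⟩
  · exact Or.inr ⟨D1, D2, hab, hc, h3, h4, h1, h2, hD, fun u hu hu1 =>
      ⟨h2 ▸ (le_sup_left : D1 ≤ D1 ⊔ D2) hu, h6 u hu hu1⟩⟩

include hp hk in
/-- the lower bound -/
theorem index_le (hB1 : BLKR) {G : Type} [Group G] [Finite G] {B : MonoidAlgebra k G}
    (hB : P179C.IsBlock B) {D : Subgroup G} (hD : P179C.IsDefectGroup B D)
    (hab : ∀ x ∈ D, ∀ y ∈ D, x * y = y * x)
    {b : MonoidAlgebra k (centralizer (D : Set G))} (hb : P179C.IsBlock b)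
    (hbB : P179C.InducesTo b B) (h : FreeFactorOn D (inertialGroup D b)) :
    inertialIndex D b ≤ P179C.numSimpleIn B := by
  rcases bhyp_of hab h with h | ⟨D1, D2, h⟩
  · exact Allb.index_le Allb.allbl hB hD hab hb hbB h
  · exact hB1 p k G B hB D hD b hb hbB D1 D2 h

include red in
/-- the upper bound, `p` odd -/
theorem le_index (hB1 : BLKR) (hp2 : p ≠ 2) {G : Type} [Group G] [Finite G]
    {B : MonoidAlgebra k G} (hB : P179C.IsBlock B) {D : Subgroup G}
    (hD : P179C.IsDefectGroup B D) (hab : ∀ x ∈ D, ∀ y ∈ D, x * y = y * x)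
    {b : MonoidAlgebra k (centralizer (D : Set G))} (hb : P179C.IsBlock b)
    (hbB : P179C.InducesTo b B) (h : FreeFactorOn D (inertialGroup D b)) :
    P179C.numSimpleIn B ≤ inertialIndex D b := by
  have := Fintype.ofFinite G
  rcases bhyp_of hab h with h | ⟨D1, D2, h⟩
  · exact (P179I.bounds_free red hB hD hab hb hbB hp2 (fun u hu hu1 => ⟨hu, h.1 u hu hu1⟩)).1
  · exact H190.upperr hB1 p k red G B hB D hD b hb hbB D1 D2 h hp2

/-- the number of weights -/
theorem weights_eq {G : Type} [Group G] [Finite G]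
    {B : MonoidAlgebra k G} (hB : P179C.IsBlock B) {D : Subgroup G}
    (hD : P179C.IsDefectGroup B D) (hab : ∀ x ∈ D, ∀ y ∈ D, x * y = y * x)
    {b : MonoidAlgebra k (centralizer (D : Set G))} (hb : P179C.IsBlock b)
    (hbB : P179C.InducesTo b B) (h : FreeFactorOn D (inertialGroup D b)) :
    P179C.numWeightsIn p red B = inertialIndex D b :=
  Allb.weq p k red G B hB D hD hab b hb hbB h.1

/-- **`|W_p(B)| ≤ l(B)`**, all primes -/
theorem weights_le (hB1 : BLKR) {G : Type} [Group G] [Finite G]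
    {B : MonoidAlgebra k G} (hB : P179C.IsBlock B) {D : Subgroup G}
    (hD : P179C.IsDefectGroup B D) (hab : ∀ x ∈ D, ∀ y ∈ D, x * y = y * x)
    {b : MonoidAlgebra k (centralizer (D : Set G))} (hb : P179C.IsBlock b)
    (hbB : P179C.InducesTo b B) (h : FreeFactorOn D (inertialGroup D b)) :
    P179C.numWeightsIn p red B ≤ P179C.numSimpleIn B := by
  rw [weights_eq red hB hD hab hb hbB h]
  exact index_le hB1 hB hD hab hb hbB h

/-- **the equality**, `p` odd -/
theorem eq_factor (hB1 : BLKR) (hp2 : p ≠ 2) {G : Type} [Group G] [Finite G]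
    {B : MonoidAlgebra k G} (hB : P179C.IsBlock B) {D : Subgroup G}
    (hD : P179C.IsDefectGroup B D) (hab : ∀ x ∈ D, ∀ y ∈ D, x * y = y * x)
    {b : MonoidAlgebra k (centralizer (D : Set G))} (hb : P179C.IsBlock b)
    (hbB : P179C.InducesTo b B) (h : FreeFactorOn D (inertialGroup D b)) :
    P179C.numSimpleIn B = P179C.numWeightsIn p red B := by
  rw [weights_eq red hB hD hab hb hbB h]
  exact le_antisymm (le_index red hB1 hp2 hB hD hab hb hbB h) (index_le hB1 hB hD hab hb hbB h)

theorem eqForAct_factor (hB1 : BLKR) (hp2 : p ≠ 2) {G : Type} [Group G]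
    [Finite G] {K S : Subgroup G} (hS : S ≤ normalizer (K : Set G)) (h : FreeFactorOn K S) :
    EqForAct p red K S :=
  fun _ _ _ _ _ _ hB hD hab hβ hβB hact =>
    eq_factor red hB1 hp2 hB hD hab hβ hβB (freeFactorOn_act hS hact h)

theorem eqForAct_knownOrFactor (hB1 : BLKR) (hp2 : 2 < p) {G : Type} [Group G]
    [Finite G] {K S : Subgroup G} (hS : S ≤ normalizer (K : Set G)) (h : KnownOrFactor p K S) :
    EqForAct p red K S := by
  rcases h with h | h
  · exact eqForAct_of_known red (eqwStmt p k) hp2 hS h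
  · exact eqForAct_factor red hB1 (by omega) hS h

/-- **the equality for the groups `K` with the action of `S` which satisfy `SolvedFrom`** -/
theorem eqForAct_of_solvedFrom (hp2 : 2 < p) {G : Type} [Group G]
    [Finite G] {P : Subgroup G → Subgroup G → Prop}
    (hP : ∀ K S : Subgroup G, S ≤ normalizer (K : Set G) → P K S → EqForAct p red K S)
    {K S : Subgroup G} (hS : S ≤ normalizer (K : Set G))
    (h : SolvedFrom p P K S) : EqForAct p red K S := by
  induction h with
  | base h => exact hP _ _ hS h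
  | @step K S a j o w hj ho hw hord hreg hii hcd _ ih =>
    intro X _ _ B D β hB hDB hab hβ hβB hact
    have hB' : P179B.IsBlock B := hB
    have hDB' : P179B.IsDefectGroup B D := hDB
    have hβB' : P179B.InducesTo β B := (P179B.inducesTo_iff β B).2 hβB
    have hp2' : p ≠ 2 := by omega
    have hK : ∀ t ∈ S, ∀ x ∈ K, t * x * t⁻¹ ∈ K := fun t ht x hx =>
      (mem_normalizer_iff.1 (hS ht) x).1 hx
    have hTN : inertialGroup D β ≤ normalizer (D : Set X) := fun n hn => hn.1
    -- the groups `[D, F]`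
    have hF : ∀ F' ≤ inertialGroup D β, (∀ n ∈ F', ∀ d ∈ D, n * d ^ p ^ a * n⁻¹ = d ^ p ^ a) →
        EqForAct p red (⁅F', D⁆ : Subgroup X)
          (inertialGroup D β ⊓ normalizer ((⁅F', D⁆ : Subgroup X) : Set X)) := by
      intro F' hF' hq
      obtain ⟨F, hFS, hFq, hFa⟩ := comm_act hK hact hF' hq
      exact (ih F hFS hFq inf_le_right).congr hFa
    obtain ⟨w', hw'⟩ := RegData.act (a := a) ⟨hw, hord, hreg, hii, hcd⟩ inferInstance hS hact
    have hl := bound_of_regData red hp2' hB hDB hab hβ hβB hj ho hw'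
    have hwt := weights_of_regData red hp2' hB hDB hab hβ hβB hj ho hw'
    by_cases hex : ∃ d ∈ D, d ^ p ^ a ≠ 1
    · have hdvd := dvd_of_starA red (eqwStmt p k) hB' hDB' hab hβ hβB' hex
        fun F hFT _ M _ _ hM hFM _ => hF F hFT fun n hn d hd => by
          rw [← mem_centralizer_iff.1 (hFM hn) _ (hM d hd), mul_inv_cancel_right]
      have hmod : P179B.numSimpleIn B ≡ P179B.numWeightsIn p red B [MOD p ^ (a + 1)] := by
        rw [← Int.natCast_modEq_iff]
        refine Int.ModEq.symm ((Int.modEq_iff_dvd).2 ?_)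
        exact_mod_cast hdvd
      have hl0 : 0 < P179B.numSimpleIn B := by
        rw [P179B.numSimpleIn_eq]
        exact P179C.numSimpleIn_pos B hB
      rw [← P179B.numSimpleIn_eq] at hl
      rw [← P179B.numWeightsIn_eq] at hwt
      have h3 := eq_of_modEq_le hmod hl0 hl (numWeights_pos red hB' hDB' hab) hwt
      rwa [P179B.numSimpleIn_eq, P179B.numWeightsIn_eq] at h3
    · push Not at hex
      have h1 := hF (inertialGroup D β) le_rfl fun n _ d hd => by
        rw [hex d hd, mul_one, mul_inv_cancel]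
      have h2 : inertialGroup D β ⊓ normalizer
          ((⁅inertialGroup D β, D⁆ : Subgroup X) : Set X) = inertialGroup D β :=
        inf_eq_left.2 (comm_normal hTN fun t ht f hf =>
          mul_mem (mul_mem ht hf) (inv_mem ht))
      rw [h2] at h1
      exact P179H364.rel_of_hyp red (P := fun l w => l = w) rfl
        (fun _ _ _ _ h2 h3 => by rw [h2, h3]) _ X rfl B D β hB hDB hab hβ hβB h1

end

section

variable {p : ℕ} [hp : Fact p.Prime] {k : Type} [Field k] [IsAlgClosed k] [hk : CharP k p]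
  (red : integralClosure ℤ ℂ →+* k) {G : Type} [Group G] [Finite G] {B : MonoidAlgebra k G}
  {D : Subgroup G} {β : MonoidAlgebra k (centralizer (D : Set G))}
  {P : Subgroup G → Subgroup G → Prop}

/-- **the equality**, in terms of `D` -/
theorem eq_of_solvedFrom (hp2 : 2 < p)
    (hP : ∀ K S : Subgroup G, S ≤ normalizer (K : Set G) → P K S → EqForAct p red K S)
    (hB : P179B.IsBlock B) (hD : P179B.IsDefectGroup B D)
    (hab : ∀ a ∈ D, ∀ b ∈ D, a * b = b * a)
    (hβ : P179B.IsBlock β) (hβB : P179B.InducesTo β B)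
    (h : SolvedFrom p P D (inertialGroup D β)) :
    P179B.numSimpleIn B = P179B.numWeightsIn p red B := by
  have hTN : inertialGroup D β ≤ normalizer (D : Set G) := fun n hn => hn.1
  rw [P179B.numSimpleIn_eq, P179B.numWeightsIn_eq]
  exact eqForAct_of_solvedFrom red hp2 hP hTN h G B D β hB hD hab hβ
    ((P179B.inducesTo_iff β B).1 hβB) (actSub_refl _ _)

/-- **the equality**, in terms of `[D, T]` -/
theorem eq_of_solvedFrom_hyp (hp2 : 2 < p)
    (hP : ∀ K S : Subgroup G, S ≤ normalizer (K : Set G) → P K S → EqForAct p red K S)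
    (hB : P179B.IsBlock B) (hD : P179B.IsDefectGroup B D)
    (hab : ∀ a ∈ D, ∀ b ∈ D, a * b = b * a)
    (hβ : P179B.IsBlock β) (hβB : P179B.InducesTo β B)
    (h : SolvedFrom p P (⁅inertialGroup D β, D⁆ : Subgroup G) (inertialGroup D β)) :
    P179B.numSimpleIn B = P179B.numWeightsIn p red B := by
  rw [P179B.numSimpleIn_eq, P179B.numWeightsIn_eq]
  refine P179H364.rel_of_hyp red (P := fun l w => l = w) rfl
    (fun _ _ _ _ h2 h3 => by rw [h2, h3]) _ G rfl B D β hB hD hab hβ
    ((P179B.inducesTo_iff β B).1 hβB) (eqForAct_of_solvedFrom red hp2 hP ?_ h)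
  exact comm_normal (fun n hn => hn.1) fun t ht f hf => mul_mem (mul_mem ht hf) (inv_mem ht)

/-- **the equality**, in terms of `[D, C_T(M)]` for a normal `p`-subgroup `M` of `G` -/
theorem eq_of_solvedFrom_normal (hp2 : 2 < p)
    (hP : ∀ K S : Subgroup G, S ≤ normalizer (K : Set G) → P K S → EqForAct p red K S)
    (M : Subgroup G) [hMn : M.Normal] (hM : IsPGroup p M) (hB : P179B.IsBlock B)
    (hD : P179B.IsDefectGroup B D) (hab : ∀ a ∈ D, ∀ b ∈ D, a * b = b * a)
    (hβ : P179B.IsBlock β) (hβB : P179B.InducesTo β B)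
    (h : SolvedFrom p P (⁅inertialGroup D β ⊓ centralizer (M : Set G), D⁆ : Subgroup G)
      (inertialGroup D β)) :
    P179B.numSimpleIn B = P179B.numWeightsIn p red B := by
  have hN : inertialGroup D β ≤ normalizer
      ((⁅inertialGroup D β ⊓ centralizer (M : Set G), D⁆ : Subgroup G) : Set G) := by
    refine comm_normal (fun n hn => hn.1) fun t ht f hf => ?_
    have h2 : (centralizer (M : Set G)).Normal := inferInstance
    exact Subgroup.mem_inf.2 ⟨(inertialGroup D β).mul_mem ((inertialGroup D β).mul_mem ht hf.1)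
      ((inertialGroup D β).inv_mem ht), h2.conj_mem f hf.2 t⟩
  rw [P179B.numSimpleIn_eq, P179B.numWeightsIn_eq]
  refine P179H443.eq_of_eqw_act red (eqwStmt p k) M hM hB hD hab hβ
    ((P179B.inducesTo_iff β B).1 hβB) ?_
  rw [inf_eq_left.2 hN]
  exact eqForAct_of_solvedFrom red hp2 hP hN h

/-- **the congruence modulo `p ^ (a + 1)`** -/
theorem modEq_of_levelSolvedFrom {a : ℕ} (hp2 : 2 < p)
    (hP : ∀ K S : Subgroup G, S ≤ normalizer (K : Set G) → P K S → EqForAct p red K S)
    (hB : P179B.IsBlock B) (hD : P179B.IsDefectGroup B D)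
    (hab : ∀ x ∈ D, ∀ y ∈ D, x * y = y * x)
    (hβ : P179B.IsBlock β) (hβB : P179B.InducesTo β B) (h : LevelSolvedFrom p a P D β) :
    P179B.numSimpleIn B ≡ P179B.numWeightsIn p red B [MOD p ^ (a + 1)] := by
  by_cases hex : ∃ d ∈ D, d ^ p ^ a ≠ 1
  · have hdvd := dvd_of_starA red (eqwStmt p k) hB hD hab hβ hβB hex
      fun F hFT _ M _ _ hM hFM _ => eqForAct_of_solvedFrom red hp2 hP inf_le_right
        (h F hFT fun n hn d hd => by
          rw [← mem_centralizer_iff.1 (hFM hn) _ (hM d hd), mul_inv_cancel_right])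
    rw [← Int.natCast_modEq_iff]
    refine Int.ModEq.symm ((Int.modEq_iff_dvd).2 ?_)
    exact_mod_cast hdvd
  · push Not at hex
    have h1 := h (inertialGroup D β) le_rfl fun n _ d hd => by
      rw [hex d hd, mul_one, mul_inv_cancel]
    have h2 : inertialGroup D β ⊓ normalizer
        ((⁅inertialGroup D β, D⁆ : Subgroup G) : Set G) = inertialGroup D β :=
      inf_eq_left.2 (comm_normal (fun n hn => hn.1) fun t ht f hf =>
        mul_mem (mul_mem ht hf) (inv_mem ht))
    rw [h2] at h1
    rw [eq_of_solvedFrom_hyp red hp2 hP hB hD hab hβ hβB h1]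

/-- **the equality** -/
theorem eq_of_solvedBlockFrom
    (hP : 2 < p → ∀ K S : Subgroup G, S ≤ normalizer (K : Set G) → P K S → EqForAct p red K S)
    (hB : P179B.IsBlock B) (h : SolvedBlockFrom p P B) :
    P179B.numSimpleIn B = P179B.numWeightsIn p red B := by
  obtain ⟨hp2, D, b, hD, hab, hb, hbB, h | ⟨M, hMn, hMp, h⟩⟩ := h
  · exact eq_of_solvedFrom red hp2 (hP hp2) hB hD hab hb hbB h
  · exact eq_of_solvedFrom_normal red hp2 (hP hp2) M hMp hB hD hab hb hbB h

/-- **the equality**, for `KnownOrFactor` -/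
theorem eq_of_solvedBlock (hB1 : BLKR) (hB : P179B.IsBlock B)
    (h : SolvedBlockFrom p (KnownOrFactor p) B) :
    P179B.numSimpleIn B = P179B.numWeightsIn p red B :=
  eq_of_solvedBlockFrom red (fun hp2 _ _ => eqForAct_knownOrFactor red hB1 hp2) hB h

/-- **the congruence**, for `KnownOrFactor` -/
theorem modEq_of_levelSolved (hB1 : BLKR) {a : ℕ} (hp2 : 2 < p) (hB : P179B.IsBlock B)
    (hD : P179B.IsDefectGroup B D) (hab : ∀ x ∈ D, ∀ y ∈ D, x * y = y * x)
    (hβ : P179B.IsBlock β) (hβB : P179B.InducesTo β B)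
    (h : LevelSolvedFrom p a (KnownOrFactor p) D β) :
    P179B.numSimpleIn B ≡ P179B.numWeightsIn p red B [MOD p ^ (a + 1)] :=
  modEq_of_levelSolvedFrom red hp2 (fun _ _ => eqForAct_knownOrFactor red hB1 hp2) hB hD hab hβ
    hβB h

/-- **a free factor, or a cyclic inertial quotient of prime power order**: `|W_p(B)| = e ≤ l(B)`,
with equality for `p` odd -/
theorem factor_core (hB1 : BLKR) (hB : P179B.IsBlock B) (hD : P179B.IsDefectGroup B D)
    (hab : ∀ x ∈ D, ∀ y ∈ D, x * y = y * x) (hβ : P179B.IsBlock β)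
    (hβB : P179B.InducesTo β B)
    (hcyc : ∃ t ∈ inertialGroup D β, ∀ n ∈ inertialGroup D β, ∃ i : ℕ,
      t ^ i * n ∈ centralizer (D : Set G))
    (h : IsPrimePow (inertialIndex D β) ∨ FreeFactorOn D (inertialGroup D β)) :
    P179B.numWeightsIn p red B = inertialIndex D β ∧
      inertialIndex D β ≤ P179B.numSimpleIn B ∧
      (p ≠ 2 → P179B.numSimpleIn B = inertialIndex D β) := by
  have := Fintype.ofFinite G
  have hbB' : P179C.InducesTo β B := (P179B.inducesTo_iff β B).1 hβB
  have hTN : inertialGroup D β ≤ normalizer (D : Set G) := fun n hn => hn.1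
  have hF : FreeFactorOn D (inertialGroup D β) := by
    rcases h with h | h
    · have hDp : IsPGroup p D := (exists_BP_of_block (p := p) B hB D hD).1
      exact freeFactorOn_of_primePow (p := p) hDp hTN hab hcyc
        (P179H292.numWeights_le red hB hD hab hβ hβB).2 h
    · exact h
  rw [P179B.numWeightsIn_eq, P179B.numSimpleIn_eq]
  exact ⟨weights_eq red hB hD hab hβ hbB' hF, index_le hB1 hB hD hab hβ hbB' hF, fun hp2 =>
    le_antisymm (le_index red hB1 hp2 hB hD hab hβ hbB' hF) (index_le hB1 hB hD hab hβ hbB' hF)⟩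

end

end Vale.P179.Rel
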