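import Vale.Agent.P179.Rel.Defs

/-!
# REL (P179): assembly of the lower bound for the class `AX`
-/

namespace Vale.P179.Rel

open Module Vale.P179.H175 Vale.P179.H904 Vale.P179.H445 Vale.P179.Sgn Vale.P179.Allb P179H342
open scoped TensorProduct

theorem span_of (k G : Type) [Field k] [Group G] :
    Submodule.span k (Set.range (MonoidAlgebra.of k G)) = ⊤ := by
  rw [eq_top_iff]
  intro a _
  induction a using MonoidAlgebra.induction_linear with
  | zero => exact zero_mem _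
  | add x y hx hy => exact add_mem (hx trivial) (hy trivial)
  | single g r =>
    have : (MonoidAlgebra.single g r : MonoidAlgebra k G) = r • MonoidAlgebra.of k G g := by
      rw [MonoidAlgebra.of_apply, MonoidAlgebra.smul_single, smul_eq_mul, mul_one]
    rw [this]
    exact Submodule.smul_mem _ _ (Submodule.subset_span ⟨g, rfl⟩)

/-- The lower bound for the relative data. -/
theorem kdata_lower (h4 : S4AR1) (h1 : S1R) (hF : FLDR) (hG : GR) (hC : CNT) (hN : CORER)
    (p : ℕ) [Fact p.Prime] (k : Type) [Field k] [IsAlgClosed k] [CharP k p]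
    (B Γ : Type) [Ring B] [Algebra k B] [FiniteDimensional k B] [Group Γ]
    [Fintype Γ] (D1 D2 : Subgroup Γ) (t : Γ) (e : ℕ) [NeZero e]
    (D : RKData k (MonoidAlgebra k Γ) B Γ D1 D2 t) (hγ : D.γ = MonoidAlgebra.of k Γ)
    (hfree : FreeCycR p Γ D1 D2 t e) (hZ : ZLoc B) : e ≤ lB k B := by
  classical
  have : Fintype ↥(D1 ⊔ Subgroup.zpowers t) := Fintype.ofFinite _
  have hfd : ∀ (G : Type) [Fintype G], FiniteDimensional k (MonoidAlgebra k G) := by
    intro G _
    have : Module.Finite k (G →₀ k) := inferInstance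
    exact Module.Finite.equiv (MonoidAlgebra.coeffLinearEquiv k (M := G) (S := k)).symm
  have : FiniteDimensional k (MonoidAlgebra k Γ) := hfd Γ
  have : FiniteDimensional k (MonoidAlgebra k ↥(D1 ⊔ Subgroup.zpowers t)) := hfd _
  have hret : ∀ a, D.ρ (D.ι a) = a := by
    have : Fintype D1 := Fintype.ofFinite D1
    exact D.rel.ret
  have : Nontrivial B := by
    have hinj : Function.Injective D.ι := fun a b h => by rw [← hret a, h, hret]
    exact hinj.nontrivial
  have h4' : ∀ γ : Γ →* MonoidAlgebra k Γ, γ = MonoidAlgebra.of k Γ →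
      ∃ (M c : ℕ) (H : RGr k (MonoidAlgebra k Γ) Γ γ D2 t e M c),
      Nonempty (RGr1 k (MonoidAlgebra k Γ) (MonoidAlgebra k ↥(D1 ⊔ Subgroup.zpowers t)) Γ
      ↥(D1 ⊔ Subgroup.zpowers t) γ (MonoidAlgebra.of k _)
      (D1 ⊔ Subgroup.zpowers t).subtype D2 t e M c H) := by
    rintro _ rfl
    exact h4 p k Γ D1 D2 t e hfree
  obtain ⟨M, c, H, ⟨G1⟩⟩ := h4' D.γ hγ
  let X : RAll k (MonoidAlgebra k Γ) B (MonoidAlgebra k ↥(D1 ⊔ Subgroup.zpowers t)) Γ D1 D2 t
      e M c := ⟨D, H, MonoidAlgebra.of k _, G1, span_of k _⟩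
  obtain ⟨X', l, g, hl0, hl, hg, hZ', hle⟩ := hF p k (MonoidAlgebra k Γ) B
    (MonoidAlgebra k ↥(D1 ⊔ Subgroup.zpowers t)) Γ D1 D2 t e M c hfree X
    (h1 p k _ B Γ D1 D2 t e hfree D M c H) hZ
  obtain ⟨W, J, n, E, hB, hW⟩ := hG (KK k) (KK k ⊗[k] B) l hl0 hl g
  have hι : ∀ r : ℚ, ∀ h ∈ X'.H.W r, X'.D.ι h ∈ W r := by
    intro r h hh
    by_cases hr : ∃ w : ℕ, w < M ∧ r = w
    · obtain ⟨w, -, rfl⟩ := hr
      exact hW w _ (hg w h hh)
    · have := X'.H.supp r (fun w hw h => hr ⟨w, hw, h⟩)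
      rw [this] at hh
      have h0 : h = 0 := by simpa using hh
      rw [h0, map_zero]
      exact Submodule.zero_mem _
  have : CharP (KK k) p := charP_of_injective_algebraMap (algebraMap k (KK k)).injective p
  exact (hN p (KK k) _ _ _ Γ D1 D2 t e M c hfree X' hZ' W J n E hB hι).trans
    ((hC _ _ W J n E hB).trans hle)

/-- **MODULE LOWERR.** -/
theorem lowerR (h4 : S4AR1) (h1 : S1R) (hF : FLDR) (hG : GR) (hC : CNT) (hN : CORER)
    (hL : LOOPR) (hP : GRPDR) (hE : ENDPR) : LOWERR := by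
  intro p _ k _ _ _ D _ _ τ e _ D1 D2 T Λ _ _ A
  obtain ⟨Λ', _, _, A', hle, hgood⟩ := hL p k D τ e D1 D2 T Λ A
  obtain ⟨Γ, _, _, i, g, hGX, hfree⟩ := hP p D τ e D1 D2 T
  obtain ⟨K, hγ, hZ⟩ := hE p k D τ e D1 D2 T Λ' A' hgood Γ i g hGX hfree
  have : Fintype A'.I := A'.fin
  have : FiniteDimensional k Λ' := Module.Finite.of_basis A'.b
  exact (kdata_lower h4 h1 hF hG hC hN p k Λ' Γ _ _ g e K hγ hfree hZ).trans hle

end Vale.P179.Rel
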