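import Vale.Agent.P179.Rel.Lower
import Vale.Agent.P179.H342.Grpdr
import Vale.Agent.P179.H445.RFld2
import Vale.Agent.P179.H445.EndPR
import Vale.Agent.P179.H554.S1R
import Vale.Agent.P179.H554.LoopR
import Vale.Agent.P179.H737.Corer
import Vale.Agent.P179.H531.Blkr
import Vale.Agent.P179.H190.U7
import Vale.Agent.P179.H175.GRFinal
import Vale.Agent.P179.H633.Cnt
import Vale.Agent.P179.H843.BB9

/-!
# REL (P179): all modules together
-/

namespace Vale.P179.Rel

theorem lower_all : LOWERR :=
  lowerR P179H342.s4ar1_rel Vale.P179.H554.s1r Vale.P179.H445.fldr Vale.P179.H175.gr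
    Vale.P179.H633.cnt (Vale.P179.H737.R.corer Vale.P179.H843.BB.a3r') Vale.P179.H554.loopr
    P179H342.grpdr Vale.P179.H445.End.endpr

theorem blkr_all : BLKR := Vale.P179.H531.blkr lower_all

theorem upperr_all : UPPERR := Vale.P179.H190.upperr blkr_all

end Vale.P179.Rel
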